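import Vale.Agent.P352X.Api3
import Vale.Agent.P352X.Api2b
import Mathlib.Analysis.SpecialFunctions.Gaussian.FourierTransform

/-!
# P352X, row GFF, part A: the Laplace transform of the forward cone (helper64)
-/

set_option linter.all false

open MeasureTheory Filter Topology Set
open scoped SchwartzMap ComplexConjugate ContDiff Real
open Complex (I exp)

namespace Vale.Agent.P352X.Gf

open Vale.Agent.P352.GF Vale.Agent.P352.BW Vale.Agent.P352.H246
open Vale.Agent.P352.H496 Vale.Agent.P352.H755 Vale.Agent.P352.H15 Ap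

noncomputable section

theorem norm_le {p : V} (hp : p ∈ Fc) : ‖p‖ ≤ al p + be p := by
  have h1 : 0 < mdot p p := hp.1
  have h2 : 0 < p 0 := hp.2
  have h3 := ((mem_Fc p).1 hp).1
  have h4 : p 0 = al p + be p / 2 := time_eq p
  rw [mdot_eq] at h1
  refine (pi_norm_le_iff_of_nonneg (by linarith)).2 fun m => ?_
  refine le_trans (abs_le_of_sq_le_sq ?_ h2.le) (by linarith)
  fin_cases m <;> simp <;>
    nlinarith [mul_self_nonneg (p 1), mul_self_nonneg (p 2), mul_self_nonneg (p 3)]

theorem int_exp {ε : ℝ} (hε : 0 < ε) : Integrable fun p : V => Real.exp (-(ε * ‖p‖)) := by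
  have h := integrable_one_add_norm (E := V) (μ := volume) (r := 5) (by simp; norm_num)
  refine (h.const_mul (Real.exp ε * 120 / ε ^ 5)).mono' (by fun_prop) (ae_of_all _ fun p => ?_)
  have h1 := Real.pow_div_factorial_le_exp (ε * (1 + ‖p‖)) (by positivity) 5
  have h2 : 0 < 1 + ‖p‖ := by positivity
  rw [Real.norm_of_nonneg (Real.exp_pos _).le, Real.rpow_neg h2.le,
    show (5 : ℝ) = (5 : ℕ) by norm_num, Real.rpow_natCast, ← div_eq_mul_inv, div_div,
    le_div_iff₀ (by positivity), Real.exp_neg, inv_mul_le_iff₀ (Real.exp_pos _), ← mul_pow,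
    ← mul_assoc, ← Real.exp_add]
  rw [div_le_iff₀ (by positivity)] at h1
  refine h1.trans_eq ?_
  rw [show ε * (1 + ‖p‖) = ε * ‖p‖ + ε by ring]
  norm_num [Nat.factorial]

theorem int_lin {c : ℂ} (hc : c.re < 0) : ∫ s in Ioi (0 : ℝ), (s : ℂ) * exp (c * s) = 1 / c ^ 2 := by
  have c0 : c ≠ 0 := fun e => by simp [e] at hc
  have i1 : IntegrableOn (fun s : ℝ => (s : ℂ) * exp (c * s)) (Ioi 0) := by
    refine (integrableOn_rpow_mul_exp_neg_mul_rpow (s := 1) (p := 1) (b := -c.re) (by norm_num)
      one_pos (by linarith)).mono' (by fun_prop) ((ae_restrict_mem measurableSet_Ioi).mono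
        fun s (hs : 0 < s) => ?_)
    simp [Complex.norm_exp, abs_of_pos hs]
  have i2 := integrableOn_exp_mul_complex_Ioi hc 0
  have d (s : ℝ) : HasDerivAt (fun s : ℝ => c⁻¹ * (s * exp (c * s)) - (c ^ 2)⁻¹ * exp (c * s))
      (s * exp (c * s)) s := by
    have h1 : HasDerivAt (fun s : ℝ => (s : ℂ)) 1 s := Complex.ofRealCLM.hasDerivAt
    have h2 := (h1.const_mul c).cexp
    refine (((h1.fun_mul h2).const_mul c⁻¹).fun_sub (h2.const_mul (c ^ 2)⁻¹)).congr_deriv ?_
    field_simp
    ring
  rw [integral_Ioi_of_hasDerivAt_of_tendsto' (fun s _ => d s) i1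
    (tendsto_zero_of_hasDerivAt_of_integrableOn_Ioi (fun s _ => d s) i1
      ((i1.const_mul _).sub (i2.const_mul _)))]
  simp

/-- the exponential at complex points -/
def Ex (α β : ℂ) (x : R2) (p : V) : ℂ := exp (I * (β * al p + α * be p - d2 (tx p) x))

variable {α β : ℂ}

theorem int_Ex (ha : 0 < α.im) (hb : 0 < β.im) (x : R2) : IntegrableOn (Ex α β x) Fc := by
  refine (int_exp (lt_min ha hb)).integrableOn.mono' (by unfold Ex; fun_prop)
    ((ae_restrict_mem meas_Fc).mono fun p hp => ?_)
  have h1 := ((mem_Fc p).1 hp).1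
  have h2 := ((mem_Fc' p).1 hp).1
  have h3 := mul_le_mul_of_nonneg_left (norm_le hp) (lt_min ha hb).le
  simp only [Ex, Complex.norm_exp, Real.exp_le_exp]
  simp
  nlinarith [mul_le_mul_of_nonneg_right (min_le_left α.im β.im) h1.le,
    mul_le_mul_of_nonneg_right (min_le_right α.im β.im) h2.le]

theorem lap (ha : 0 < α.im) (hb : 0 < β.im) (x : R2) :
    ∫ p in Fc, Ex α β x p = 2 * π / (α * β - d2 x x / 2) ^ 2 := by
  have b0 : β ≠ 0 := fun e => by simp [e] at hb
  have i := int_Ex ha hb x
  have e1 (k : P3) : ∫ t in Ioi (0 : ℝ), Ex α β x (pc k t) = I / β * Ex α β x (pc k 0) := by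
    have e (t : ℝ) : Ex α β x (pc k t) = exp (I * β * t) * Ex α β x (pc k 0) := by
      simp only [Ex, ← Complex.exp_add, al_pc, be_pc, tx_pc]
      congr 1
      push_cast
      ring
    rw [funext e, integral_mul_const, integral_exp_mul_complex_Ioi (by simpa using hb)]
    congr 1
    simp
    field_simp
    simp
  have j := (sc_pc.integrable.2 i).integral_prod_left
  simp only [e1] at j
  rw [integral_Fc i]
  simp only [e1]
  rw [vol_Pp] at j ⊢
  rw [integral_prod _ j]
  have hc : (I * (α - d2 x x / (2 * β))).re < 0 := by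
    have : ((d2 x x : ℂ) / (2 * β)).im ≤ 0 := by
      rw [Complex.div_im]
      have := d2_nonneg x
      have := Complex.normSq_nonneg (2 * β)
      simp only [Complex.ofReal_im, Complex.ofReal_re, zero_mul, zero_div, zero_sub, neg_nonpos]
      simp only [Complex.mul_im, Complex.re_ofNat, Complex.im_ofNat, zero_mul, add_zero]
      positivity
    simp only [Complex.mul_re, Complex.I_re, Complex.I_im, Complex.sub_im, zero_mul, one_mul]
    linarith
  have e2 (s : ℝ) (hs : s ∈ Ioi (0 : ℝ)) : ∫ q : R2, I / β * Ex α β x (pc (s, q) 0) =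
      -(2 * π / β ^ 2) * (s * exp (I * (α - d2 x x / (2 * β)) * s)) := by
    have s0 : (s : ℂ) ≠ 0 := Complex.ofReal_ne_zero.2 (ne_of_gt hs)
    have hb' : 0 < (-I * β / (2 * s)).re := by
      rw [show (2 * s : ℂ) = (2 * s : ℝ) by simp, Complex.div_ofReal_re]
      have : 0 < s := hs
      simp only [Complex.mul_re, Complex.neg_re, Complex.neg_im, Complex.I_re, Complex.I_im]
      exact div_pos (by linarith) (by linarith)
    have g := GaussianFourier.integral_cexp_neg_mul_sum_add (ι := Fin 2) hb' fun i => -I * x i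
    have e (q : R2) : Ex α β x (pc (s, q) 0) = exp (I * α * s) *
        exp (-(-I * β / (2 * s)) * ∑ i, (q i : ℂ) ^ 2 + ∑ i, -I * x i * q i) := by
      simp only [Ex, ← Complex.exp_add, al_pc, be_pc, tx_pc, d2, Fin.sum_univ_two]
      congr 1
      push_cast
      ring
    simp only [e, integral_const_mul, g]
    rw [mul_left_comm (exp _), ← Complex.exp_add, Fintype.card_fin,
      show ((2 : ℕ) / 2 : ℂ) = 1 by norm_num, Complex.cpow_one, ← mul_assoc, ← mul_assoc]
    congr 1
    · field_simp
    · congr 1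
      simp only [d2, Fin.sum_univ_two]
      push_cast
      field_simp
      ring
  rw [setIntegral_congr_fun measurableSet_Ioi e2, integral_const_mul, int_lin hc]
  have n0 : α - d2 x x / (2 * β) ≠ 0 := fun e => by simp [e] at hc
  rw [show α * β - d2 x x / 2 = β * (α - d2 x x / (2 * β)) by field_simp, mul_pow, mul_pow,
    Complex.I_sq]
  field_simp

end

end Vale.Agent.P352X.Gf
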